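import Vale.Agent.P300LC.Chr
import Vale.Agent.P300LS.Stmt

/-! The theorem of Chow with the Jacobian criterion, in every dimension. -/

set_option linter.all false

open Set Filter Topology Metric
open scoped Manifold ContDiff
open Function (Injective)
open MvPolynomial (eval homogeneousComponent)
open Vale.Agent.P300.Final

noncomputable section

namespace Vale.Agent.P300LC

variable {n M : ℕ} {C : Set (Vn M)} {v : Vn M}

theorem Cn.hom (h : Cn n C) {G : Pn M} (e : ∀ x ∈ C, ev G x = 0) :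
    ∀ k ∈ Finset.range (G.totalDegree + 1), ∀ x ∈ C, ev (homogeneousComponent k G) x = 0 := by
  intro k hk x hx
  have := Polynomial.eq_zero_of_infinite_isRoot (∑ j ∈ Finset.range (G.totalDegree + 1),
    Polynomial.monomial j (ev (homogeneousComponent j G) x))
    (((finite_singleton (0 : ℂ)).infinite_compl).mono fun s hs => by
      have := e _ (h.smul x hx s hs)
      rw [← G.sum_homogeneousComponent, ev, map_sum] at this
      rw [mem_setOf, Polynomial.IsRoot, Polynomial.eval_finset_sum, ← this]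
      exact Finset.sum_congr rfl fun j _ => (Polynomial.eval_monomial.trans (mul_comm _ _)).trans
        (hom_ev (G.homogeneousComponent_isHomogeneous j) s x).symm)
  simpa [Polynomial.coeff_monomial, Finset.mem_range.1 hk] using
    congrArg (Polynomial.coeff · k) this

variable {N : ℕ} {C : Set (Vn (N + 1))}

theorem Cn.main (h : Cn n C) (ne : C.Nonempty) {Z : Set (Projectivization ℂ (Vn (N + 1)))}
    (hZ : ∀ z hz, Projectivization.mk ℂ z hz ∈ Z ↔ z ∈ C) : ∃ S, IsNonsingularZeroSetOf n S Z := by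
  obtain ⟨v, hv⟩ := ne
  refine ⟨{P | (∃ d, P.IsHomogeneous d) ∧ ∀ x ∈ C, ev P x = 0}, ⟨fun _ a => a.1, fun z hz =>
    (hZ z hz).trans ⟨fun a P b => b.2 z a, fun a => by_contra fun b => ?_⟩⟩, fun z hz a => ?_⟩
  · obtain ⟨G, g1, g2⟩ := h.off hv fun c => c.elim hz b
    refine g2 ?_
    rw [← G.sum_homogeneousComponent, ev, map_sum]
    exact Finset.sum_eq_zero fun k hk =>
      a _ ⟨⟨k, G.homogeneousComponent_isHomogeneous k⟩, h.hom g1 k hk⟩
  · obtain ⟨σ, u, p⟩ := h.par z ((hZ z hz).1 a)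
    refine (congrArg (fun T : Submodule ℂ (Vn (N + 1)) => Module.finrank ℂ T)
      (le_antisymm (fun κ b => h.jac ((hZ z hz).1 a) p fun G g => ?_) ?_)).trans
      ((LinearMap.finrank_range_of_inj (f := (df σ u).toLinearMap) p.imm).trans fr_E)
    · rw [fd_ev, ← G.sum_homogeneousComponent]
      simp only [map_sum, Finset.mul_sum]
      rw [Finset.sum_comm]
      exact Finset.sum_eq_zero fun k hk =>
        b _ ⟨⟨k, G.homogeneousComponent_isHomogeneous k⟩, h.hom g k hk⟩
    · rintro _ ⟨y, rfl⟩ P b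
      exact (fd_ev P _ _).symm.trans (p.tan (an_ev P z).differentiableAt b.2 y)

variable {X : Type} [TopologicalSpace X] [ChartedSpace (Vn n) X]
  {Φ : X → Projectivization ℂ (Vn M)} {x : X}

/-- the cone over a subset -/
def cone (Φ : X → Projectivization ℂ (Vn M)) (K : Set X) : Set (Vn M) :=
  {v | v ≠ 0 ∧ ∃ x ∈ K, v ∈ (Φ x).submodule}

theorem mem_iff {p : Projectivization ℂ (Vn M)} (hv : v ≠ 0) :
    v ∈ p.submodule ↔ p = Projectivization.mk ℂ v hv := by
  conv_lhs => rw [← p.mk_rep, Projectivization.submodule_mk, Submodule.mem_span_singleton]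
  conv_rhs => rw [← p.mk_rep, eq_comm, Projectivization.mk_eq_mk_iff']

theorem mem_hc {s : X → Vn M} (h : IsHomogeneousCoords Φ s x) :
    v ∈ (Φ x).submodule ↔ ∃ a : ℂ, a • s x = v := by
  rw [h.2, Projectivization.submodule_mk, Submodule.mem_span_singleton]

theorem cl_cone [CompactSpace X] (hΦ : IsProjectiveImmersion (Vn n) Φ) {K : Set X}
    (hK : IsClosed K) : IsClosed (insert 0 (cone Φ K)) := by
  have a : IsClosed {p : X × Vn M | p.2 ∈ (Φ p.1).submodule} := by
    refine isOpen_compl_iff.1 (isOpen_iff_mem_nhds.2 fun p hp => ?_)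
    obtain ⟨W, s, w, ⟨o, d⟩, c, -⟩ := hΦ p.1
    have t : ContinuousAt (fun q : X × Vn M => ![q.2, s q.1]) p := continuousAt_pi.2 fun i => by
      fin_cases i
      · exact continuousAt_snd
      · exact (d.contMDiffAt (o.mem_nhds w)).continuousAt.comp continuousAt_fst
    filter_upwards [t.eventually (LinearIndependent.eventually (linearIndependent_fin2.2
      ⟨(c _ w).1, fun a e => hp ((mem_hc (c _ w)).2 ⟨a, e⟩)⟩)),
      continuousAt_fst.eventually (o.mem_nhds w)] with q q1 q2 q3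
    obtain ⟨a, e⟩ := (mem_hc (c _ q2)).1 q3
    exact (linearIndependent_fin2.1 q1).2 a e
  have b := (isClosedMap_snd_of_compactSpace _ (a.inter (hK.preimage continuous_fst))).union
    (isClosed_singleton (x := 0))
  refine (Set.ext fun v => ⟨?_, ?_⟩ : _ = insert 0 (cone Φ K)) ▸ b
  · rintro (⟨p, ⟨p1, p2⟩, rfl⟩ | e)
    · exact or_iff_not_imp_left.2 fun e => ⟨e, _, p2, p1⟩
    · exact Or.inl e
  · rintro (e | ⟨-, x, a, b⟩)
    · exact Or.inr e
    · exact Or.inl ⟨(x, v), ⟨b, a⟩, rfl⟩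

theorem con_cone [PreconnectedSpace X] (hΦ : IsProjectiveImmersion (Vn n) Φ) :
    IsPreconnected (cone Φ univ) := by
  refine isPreconnected_of_forall_constant fun f hf => ?_
  have a : ∀ x v, v ≠ 0 → v ∈ (Φ x).submodule → f v = f (Φ x).rep := fun x v v0 hv => by
    rw [Projectivization.submodule_eq, Submodule.mem_span_singleton] at hv
    obtain ⟨a, rfl⟩ := hv
    conv_rhs => rw [← one_smul ℂ (Φ x).rep]
    exact (isConnected_compl_singleton_of_one_lt_rank (E := ℂ) (by simp) 0).2.constant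
      (f := fun a : ℂ => f (a • (Φ x).rep)) (hf.comp (by fun_prop) fun a ha =>
        ⟨smul_ne_zero ha (Φ x).rep_nonzero, x, trivial, Submodule.smul_mem _ _
          ((mem_iff (Φ x).rep_nonzero).2 (Φ x).mk_rep.symm)⟩) (left_ne_zero_of_smul v0) one_ne_zero
  have b : Continuous fun x => f (Φ x).rep := continuous_iff_continuousAt.2 fun x => by
    obtain ⟨W, s, w, ⟨o, d⟩, c, -⟩ := hΦ x
    have m : ∀ y ∈ W, s y ∈ (Φ y).submodule := fun y hy => (mem_hc (c y hy)).2 ⟨1, one_smul _ _⟩
    refine ContinuousAt.congr (f := f ∘ s) ((hf _ ⟨(c x w).1, x, trivial, m x w⟩).tendsto.comp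
      (tendsto_nhdsWithin_iff.2 ⟨(d.contMDiffAt (o.mem_nhds w)).continuousAt, ?_⟩)) ?_
    · filter_upwards [o.mem_nhds w] with y hy using ⟨(c y hy).1, y, trivial, m y hy⟩
    · filter_upwards [o.mem_nhds w] with y hy using a y _ (c y hy).1 (m y hy)
  rintro v ⟨v0, x, -, hx⟩ w ⟨w0, y, -, hy⟩
  rw [a x v v0 hx, a y w w0 hy]
  exact PreconnectedSpace.constant inferInstance b

theorem par_cone [CompactSpace X] (inj : Injective Φ) (hΦ : IsProjectiveImmersion (Vn n) Φ)
    (hv : v ∈ cone Φ univ) : ∃ (σ : Vn n → Vn M) (u : Vn n), Par (cone Φ univ) v σ u := by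
  obtain ⟨v0, x, -, hx⟩ := id hv
  obtain ⟨W, s, w, ⟨o, d⟩, c, im⟩ := hΦ x
  obtain ⟨a, rfl⟩ := (mem_hc (c x w)).1 hx
  have a0 := left_ne_zero_of_smul v0
  let e := chartAt (Vn n) x
  have ex : x ∈ e.source := mem_chart_source _ x
  have d1 := d.contMDiffAt (o.mem_nhds w)
  have an : AnalyticAt ℂ (s ∘ e.symm) (e x) := by
    have := (contMDiffAt_iff.1 d1).2
    simp only [mfld_simps, contDiffWithinAt_univ] at this
    exact this.analyticAt
  have df1 : ∀ y, differential (Vn n) s x y = fderiv ℂ (s ∘ e.symm) (e x) y := fun y => by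
    rw [differential, (d1.mdifferentiableAt (by simp)).mfderiv]
    simp only [mfld_simps, writtenInExtChartAt, fderivWithin_univ]
    rfl
  have an2 : AnalyticAt ℂ (a • (s ∘ e.symm)) (e x) := an.const_smul
  have val : (a • (s ∘ e.symm)) (e x) = a • s x := congrArg (fun y => a • s y) (e.left_inv ex)
  refine ⟨a • (s ∘ e.symm), e x, an2, val, (injective_iff_map_eq_zero _).2 fun y hy => ?_,
    le_antisymm (tendsto_nhdsWithin_iff.2 ⟨?_, ?_⟩) ?_⟩
  · have := (hasFDerivAt_fst.smul (HasFDerivAt.comp (f := Prod.snd) ((1 : ℂ), e x)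
      (an.differentiableAt.hasFDerivAt.const_smul a) hasFDerivAt_snd)).fderiv
    replace hy := (DFunLike.congr_fun this y).symm.trans hy
    simp only [ContinuousLinearMap.add_apply, ContinuousLinearMap.smul_apply, one_smul,
      ContinuousLinearMap.comp_apply, ContinuousLinearMap.coe_snd', ContinuousLinearMap.coe_fst',
      ContinuousLinearMap.smulRight_apply, Function.comp_apply, val] at hy
    rw [smul_comm, ← smul_add, smul_eq_zero_iff_right a0] at hy
    have y2 := im x w y.2 (-y.1) ((df1 _).trans (by rw [neg_smul]; exact eq_neg_of_add_eq_zero_left hy))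
    rw [y2, map_zero, zero_add] at hy
    exact Prod.ext ((smul_eq_zero_iff_left (c x w).1).1 hy) y2
  · exact ((one_smul ℂ _).trans val : cf _ (1, e x) = _) ▸ (an_cf an2 1).continuousAt
  · filter_upwards [continuousAt_fst.eventually_ne (one_ne_zero (α := ℂ)), continuousAt_snd.eventually
      ((e.tendsto_symm ex).eventually (o.mem_nhds w))] with p p1 p2
    exact ⟨smul_ne_zero p1 (smul_ne_zero a0 (c _ p2).1), _, trivial,
      (mem_hc (c _ p2)).2 ⟨p.1 * a, mul_smul _ _ _⟩⟩
  have : Nonempty X := ⟨x⟩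
  choose! β hβ using fun z (hz : z ∈ cone Φ univ) => hz.2
  have t : Tendsto β (𝓝[cone Φ univ] (a • s x)) (𝓝 x) := tendsto_nhds.2 fun O hO xO => by
    filter_upwards [self_mem_nhdsWithin, mem_nhdsWithin_of_mem_nhds ((cl_cone hΦ
      hO.isClosed_compl).isOpen_compl.mem_nhds fun h => h.elim v0 fun ⟨_, y, y1, y2⟩ =>
        y1 (inj (((mem_iff v0).1 y2).trans ((mem_iff v0).1 hx).symm) ▸ xO))] with z z1 z2
    exact by_contra fun b => z2 (Or.inr ⟨z1.1, _, b, (hβ z z1).2⟩)
  obtain ⟨j, hj⟩ := Function.ne_iff.1 v0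
  have t2 : Tendsto (fun z => a * s (β z) j) (𝓝[cone Φ univ] (a • s x)) (𝓝 ((a • s x) j)) :=
    (((continuous_apply j).continuousAt.comp d1.continuousAt).tendsto.comp t).const_mul a
  refine le_trans (le_of_eq ?_) (map_mono (m := cf _) (((((continuous_apply j).continuousAt.mono_left
    nhdsWithin_le_nhds).div t2 hj).prodMk_nhds ((e.continuousAt ex).tendsto.comp t)).mono_right
      (by rw [div_self hj])))
  rw [map_map]
  refine map_id.symm.trans (Filter.map_congr ?_)
  filter_upwards [self_mem_nhdsWithin, t.eventually (o.mem_nhds w),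
    t.eventually (e.open_source.mem_nhds ex), t2.eventually_ne hj] with z z1 z2 z3 z4
  obtain ⟨b, hb⟩ := (mem_hc (c _ z2)).1 (hβ z z1).2
  have k : z j = b * s (β z) j := (congrFun hb j).symm
  simp only [cf, Function.comp_apply, Pi.smul_apply, Pi.div_apply, e.left_inv z3, id, smul_smul]
  rw [k, mul_div_mul_right _ _ (right_ne_zero_of_mul z4), div_mul_cancel₀ _ a0, hb]

/-- **CHOW** -/
theorem chow : P300LS.CHOW := by
  intro n N X _ _ _ _ _ _ Φ inj hΦ
  refine ⟨N, Φ, inj, hΦ, ?_⟩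
  rw [Module.finrank_fin_fun]
  obtain ⟨x⟩ : Nonempty X := inferInstance
  exact Cn.main (C := cone Φ univ) ⟨fun h => h.1 rfl, fun v ⟨a, x, b, c⟩ s hs =>
    ⟨smul_ne_zero hs a, x, b, Submodule.smul_mem _ _ c⟩, cl_cone hΦ isClosed_univ, con_cone hΦ,
    fun v hv => par_cone inj hΦ hv⟩ ⟨_, (Φ x).rep_nonzero, x, trivial,
      (mem_iff (Φ x).rep_nonzero).2 (Φ x).mk_rep.symm⟩ fun z hz =>
    ⟨fun ⟨x, a⟩ => ⟨hz, x, trivial, (mem_iff hz).2 a⟩, fun ⟨_, x, _, a⟩ => ⟨x, (mem_iff hz).1 a⟩⟩

end Vale.Agent.P300LC
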