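import Mathlib.Analysis.Analytic.Polynomial
import Mathlib.Analysis.Complex.Liouville
import Mathlib.Analysis.Complex.RemovableSingularity
import Mathlib.Analysis.Normed.Module.Connected
import Mathlib.RingTheory.MvPolynomial.Homogeneous
import Mathlib.Algebra.MvPolynomial.PDeriv
import Mathlib.Algebra.MvPolynomial.Funext
import Mathlib.LinearAlgebra.Complex.FiniteDimensional

/-! Polynomial functions; analytic functions of polynomial growth off a hypersurface. -/

set_option linter.all false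

open Set Filter Topology Asymptotics
open MvPolynomial (eval pderiv)

noncomputable section

namespace Vale.Agent.P300LC

/-- the coordinate space -/
abbrev Vn (m : ℕ) : Type := Fin m → ℂ

/-- the polynomial ring -/
abbrev Pn (m : ℕ) : Type := MvPolynomial (Fin m) ℂ

variable {m : ℕ}

/-- the function of a polynomial -/
def ev (P : Pn m) (z : Vn m) : ℂ := eval z P

theorem an_ev (P : Pn m) (z : Vn m) : AnalyticAt ℂ (ev P) z :=
  AnalyticOnNhd.eval_mvPolynomial P z trivial

theorem ct_ev (P : Pn m) : Continuous (ev P) :=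
  continuous_iff_continuousAt.2 fun z => (an_ev P z).continuousAt

theorem hom_ev {P : Pn m} {k : ℕ} (h : P.IsHomogeneous k) (s : ℂ) (w : Vn m) :
    ev P (s • w) = s ^ k * ev P w := by
  rw [ev, ev, MvPolynomial.eval_eq', MvPolynomial.eval_eq', Finset.mul_sum]
  refine Finset.sum_congr rfl fun d hd => ?_
  have h2 : ∑ i, d i = k := by
    rw [← h (MvPolynomial.mem_support_iff.1 hd)]
    simp [Finsupp.weight_apply, Finsupp.sum_fintype]
  simp only [Pi.smul_apply, smul_eq_mul, mul_pow, Finset.prod_mul_distrib,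
    Finset.prod_pow_eq_pow_sum, h2]
  ring

theorem fd_ev (P : Pn m) (z v : Vn m) :
    fderiv ℂ (ev P) z v = ∑ b, v b * eval z (pderiv b P) := by
  induction P using MvPolynomial.induction_on with
  | C a =>
    have : ev (MvPolynomial.C a : Pn m) = fun _ => a := funext fun _ => by simp [ev]
    simp [this]
  | add p q hp hq =>
    have : ev (p + q) = ev p + ev q := funext fun _ => by simp [ev]
    rw [this, fderiv_add (an_ev p z).differentiableAt (an_ev q z).differentiableAt]
    simp [hp, hq, mul_add, Finset.sum_add_distrib]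
  | mul_X p i hp =>
    have : ev (p * MvPolynomial.X i) = ev p * fun y : Vn m => y i := funext fun _ => by simp [ev]
    rw [this, fderiv_mul (an_ev p z).differentiableAt (differentiableAt_apply i z),
      (hasFDerivAt_apply i z).fderiv]
    simp [hp, mul_add, Finset.sum_add_distrib, Pi.single_apply, Finset.mul_sum, ev,
      MvPolynomial.pderiv_X, apply_ite (eval z), mul_comm, mul_left_comm, add_comm]

theorem ex_line (P : Pn m) (z y : Vn m) : ∃ q : Polynomial ℂ, ∀ s, q.eval s = ev P (z + s • y) := by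
  induction P using MvPolynomial.induction_on with
  | C a => exact ⟨Polynomial.C a, fun _ => by simp [ev]⟩
  | add p q hp hq =>
    obtain ⟨a, ha⟩ := hp
    obtain ⟨b, hb⟩ := hq
    exact ⟨a + b, fun s => by simp [ha, hb, ev]⟩
  | mul_X p i hp =>
    obtain ⟨a, ha⟩ := hp
    exact ⟨a * (Polynomial.C (z i) + Polynomial.X * Polynomial.C (y i)), fun s => by
      simp [ha, ev, mul_comm s]⟩

theorem line_fin {P : Pn m} {z y : Vn m} {t : ℂ} (h : ev P (z + t • y) ≠ 0) :
    {s : ℂ | ev P (z + s • y) = 0}.Finite := by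
  obtain ⟨q, hq⟩ := ex_line P z y
  simp only [← hq] at h ⊢
  exact Polynomial.finite_setOf_isRoot fun e => h (by simp [e])

theorem ex_ne {P : Pn m} (h : P ≠ 0) : ∃ z, ev P z ≠ 0 := by
  by_contra! e
  exact h (MvPolynomial.funext fun z => (e z).trans (map_zero _).symm)

theorem dense_ne {P : Pn m} (h : P ≠ 0) : Dense {z | ev P z ≠ 0} := fun z => by
  obtain ⟨y, hy⟩ := ex_ne h
  by_contra e
  refine hy (AnalyticOnNhd.eqOn_zero_of_preconnected_of_eventuallyEq_zero (fun z _ => an_ev P z)
    isPreconnected_univ (mem_univ z) ?_ (mem_univ y))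
  filter_upwards [isClosed_closure.isOpen_compl.mem_nhds e] with w hw
  by_contra c
  exact hw (subset_closure c)

theorem pre_ne (P : Pn m) : IsPreconnected {z | ev P z ≠ 0} := by
  refine isPreconnected_of_forall_pair fun x hx y hy => ?_
  have h0 : ev P (x + (0 : ℂ) • (y - x)) ≠ 0 := by simpa using hx
  have h1 : ev P (x + (1 : ℂ) • (y - x)) ≠ 0 := by simpa using hy
  refine ⟨(fun s : ℂ => x + s • (y - x)) '' {s : ℂ | ev P (x + s • (y - x)) = 0}ᶜ, ?_,
    ⟨0, h0, by simp⟩, ⟨1, h1, by simp⟩, ((line_fin h0).countable.isConnected_compl_of_one_lt_rank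
      (by simp)).2.image _ (by fun_prop)⟩
  rintro _ ⟨s, hs, rfl⟩
  exact hs

theorem ml_exp {j : ℕ} (B : ContinuousMultilinearMap ℂ (fun _ : Fin j => Vn m) ℂ) (y : Vn m) :
    B (fun _ => y) = ∑ i : Fin j → Fin m, (∏ k, y (i k)) * B fun k => Pi.single (i k) 1 := by
  conv_lhs => rw [← Finset.univ_sum_single y]
  rw [B.map_sum fun _ a => Pi.single a (y a)]
  refine Finset.sum_congr rfl fun i _ => ?_
  rw [← smul_eq_mul, ← B.map_smul_univ]
  exact congrArg B (funext fun k => by rw [← Pi.single_smul', smul_eq_mul, mul_one])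

theorem ex_pol (p : FormalMultilinearSeries ℂ (Vn m) ℂ) (d : ℕ) (x : Vn m) :
    ∃ G : Pn m, ∀ z, ev G z = p.partialSum d (z - x) :=
  ⟨∑ j ∈ Finset.range d, ∑ i : Fin j → Fin m, (∏ k, (MvPolynomial.X (i k) -
    MvPolynomial.C (x (i k)))) * MvPolynomial.C (p j fun k => Pi.single (i k) 1), fun z => by
      simp [ev, FormalMultilinearSeries.partialSum, ml_exp (p _) (z - x)]⟩

theorem rem {T : Set ℂ} (hT : T.Finite) : ∀ r : ℂ → ℂ, DifferentiableOn ℂ r Tᶜ →
    (∀ c ∈ T, IsBoundedUnder (· ≤ ·) (𝓝[≠] c) (norm ∘ r)) → Tendsto r (cocompact ℂ) (𝓝 0) →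
    ∀ s ∉ T, r s = 0 := by
  induction T, hT using Set.Finite.induction_on with
  | empty =>
    exact fun r d _ t s _ =>
      (differentiableOn_univ.1 (by simpa using d)).apply_eq_of_tendsto_cocompact s t
  | @insert c T hc hT ih =>
    intro r d b t s hs
    have e : ∀ z ≠ c, Function.update r c (limUnder (𝓝[≠] c) r) z = r z := fun z hz =>
      Function.update_of_ne hz ..
    rw [← e s fun h => hs (Or.inl h)]
    refine ih _ (Complex.differentiableOn_update_limUnder_of_isLittleO
      (hT.isClosed.isOpen_compl.mem_nhds hc) (d.mono fun z hz h => h.elim hz.2 hz.1)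
      (IsBoundedUnder.isLittleO_sub_self_inv ?_)) (fun a ha => ?_) (t.congr' ?_) s
      fun h => hs (Or.inr h)
    · obtain ⟨K, hK⟩ := b c (Or.inl rfl)
      exact ⟨K + ‖r c‖, eventually_map.2 ((eventually_map.1 hK).mono fun z hz =>
        norm_sub_le_of_le hz le_rfl)⟩
    · obtain ⟨K, hK⟩ := b a (Or.inr ha)
      refine ⟨K, eventually_map.2 ?_⟩
      filter_upwards [eventually_map.1 hK, mem_nhdsWithin_of_mem_nhds
        (isOpen_ne.mem_nhds (show a ≠ c from fun h => hc (h ▸ ha)))] with z h1 h2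
      simpa [e z h2] using h1
    · filter_upwards [(isCompact_singleton (x := c)).compl_mem_cocompact] with z hz
      exact (e z hz).symm

theorem one_var {T : Set ℂ} (hT : T.Finite) {q : ℂ → ℂ} (hq : DifferentiableOn ℂ q Tᶜ) {c : ℝ}
    {d : ℕ} (hb : ∀ s ∉ T, ‖q s‖ ≤ c * (1 + ‖s‖) ^ d) (a : ℕ → ℂ)
    (ho : (fun s => q s - ∑ j ∈ Finset.range (d + 1), s ^ j * a j) =O[𝓝 0] fun s => s ^ (d + 1))
    {s : ℂ} (hs : s ∉ T) (h0 : s ≠ 0) : q s = ∑ j ∈ Finset.range (d + 1), s ^ j * a j := by
  set g : ℂ → ℂ := fun s => ∑ j ∈ Finset.range (d + 1), s ^ j * a j with hg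
  have dg : Differentiable ℂ g := by rw [hg]; fun_prop
  have key := rem (hT.insert 0) (fun s => (q s - g s) / s ^ (d + 1))
    (((hq.mono (compl_subset_compl.2 (subset_insert _ _))).sub dg.differentiableOn).div (by fun_prop)
      fun z hz => pow_ne_zero _ fun h => hz (Or.inl h)) (fun b _ => ?_) ?_ s
      fun h => h.elim h0 hs
  · exact sub_eq_zero.1 ((div_eq_zero_iff.1 key).resolve_right (pow_ne_zero _ h0))
  · by_cases e : b = 0
    · subst e
      exact (div_isBoundedUnder_of_isBigO (ho.mono nhdsWithin_le_nhds))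
    · refine div_isBoundedUnder_of_isBigO (IsBigO.trans (g := fun _ => (1 : ℝ)) (IsBigO.sub ?_ ?_)
        (IsBigO.mono ?_ nhdsWithin_le_nhds))
      · refine IsBigO.trans (g := fun s => c * (1 + ‖s‖) ^ d) (IsBigO.of_norm_eventuallyLE ?_)
          (((show Continuous fun s : ℂ => c * (1 + ‖s‖) ^ d by fun_prop).continuousAt.isBigO_one
            ℝ).mono nhdsWithin_le_nhds)
        filter_upwards [(hT.eventually_cofinite_notMem).filter_mono (nhdsNE_le_cofinite b)]
          with z hz using hb z hz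
      · exact (dg.continuous.continuousAt.isBigO_one ℝ).mono nhdsWithin_le_nhds
      · exact (isBigO_const_left_iff_pos_le_norm one_ne_zero).2 ⟨‖b ^ (d + 1)‖ / 2, half_pos
          (norm_pos_iff.2 (pow_ne_zero _ e)), (continuous_pow _).norm.continuousAt.eventually_const_le
            (half_lt_self (norm_pos_iff.2 (pow_ne_zero _ e)))⟩
  · have h1 : ∀ᶠ z : ℂ in cocompact ℂ, 1 ≤ ‖z‖ :=
      tendsto_norm_cocompact_atTop.eventually_ge_atTop 1
    have h2 : (fun s => q s - g s) =O[cocompact ℂ] fun s => s ^ d := by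
      refine IsBigO.sub (IsBigO.of_bound (|c| * 2 ^ d) ?_) (IsBigO.fun_sum fun j hj => ?_)
      · filter_upwards [h1, hT.isCompact.compl_mem_cocompact] with z h h'
        refine (hb z h').trans ?_
        rw [norm_pow, mul_assoc, ← mul_pow]
        gcongr
        · exact le_abs_self c
        · linarith
      · refine IsBigO.of_bound ‖a j‖ (h1.mono fun z h => ?_)
        rw [norm_mul, norm_pow, norm_pow, mul_comm]
        gcongr
        exact Nat.lt_succ_iff.1 (Finset.mem_range.1 hj)
    refine (h2.trans_isLittleO ?_).tendsto_div_nhds_zero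
    refine (isLittleO_iff_tendsto' (h1.mono fun z h e => ?_)).2 (Tendsto.congr' (h1.mono
      fun z h => ?_) (Metric.cobounded_eq_cocompact (α := ℂ) ▸ tendsto_inv₀_cobounded))
    · exact absurd (pow_eq_zero_iff (Nat.succ_ne_zero d) |>.1 e) (by rintro rfl; norm_num at h)
    · have : z ≠ 0 := by rintro rfl; norm_num at h
      beta_reduce
      rw [pow_succ]
      field_simp

/-- an analytic function of polynomial growth off a hypersurface is a polynomial -/
theorem pol_ext (δ : Pn m) {Q : Vn m → ℂ} (hQ : ∀ z, ev δ z ≠ 0 → AnalyticAt ℂ Q z) {c : ℝ} {d : ℕ}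
    (hb : ∀ z, ev δ z ≠ 0 → ‖Q z‖ ≤ c * (1 + ‖z‖) ^ d) :
    ∃ G : Pn m, ∀ z, ev δ z ≠ 0 → ev G z = Q z := by
  by_cases h : ∃ x, ev δ x ≠ 0
  swap
  · exact ⟨0, fun z hz => (h ⟨z, hz⟩).elim⟩
  obtain ⟨x, hx⟩ := h
  obtain ⟨p, hp⟩ := hQ x hx
  obtain ⟨G, hG⟩ := ex_pol p (d + 1) x
  refine ⟨G, fun z hz => ?_⟩
  have h0 : ev δ (x + (0 : ℂ) • (z - x)) ≠ 0 := by simpa using hx
  have e : ∀ s : ℂ, p.partialSum (d + 1) (s • (z - x)) =
      ∑ j ∈ Finset.range (d + 1), s ^ j * p j fun _ => z - x := fun s =>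
    Finset.sum_congr rfl fun j _ => by rw [(p j).map_smul_univ]; simp
  have := one_var (line_fin h0) (q := fun s => Q (x + s • (z - x))) (fun s hs =>
    ((hQ _ hs).differentiableAt.comp s (by fun_prop)).differentiableWithinAt)
    (c := |c| * (1 + ‖x‖ + ‖z - x‖) ^ d) (d := d) (fun s hs => (hb _ hs).trans ?_)
    (fun j => p j fun _ => z - x) ?_ (s := 1) (by simpa using hz) one_ne_zero
  · rw [hG, ← one_smul ℂ (z - x), e, ← this]
    simp
  · rw [mul_assoc, ← mul_pow]
    gcongr
    · exact le_abs_self c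
    · have := norm_add_le x (s • (z - x))
      rw [norm_smul] at this
      nlinarith [norm_nonneg x, norm_nonneg s, norm_nonneg (z - x)]
  · have t : Tendsto (fun s : ℂ => s • (z - x)) (𝓝 0) (𝓝 0) :=
      Continuous.tendsto' (by fun_prop) _ _ (zero_smul _ _)
    refine (((hp.isBigO_sub_partialSum_pow (d + 1)).comp_tendsto t).congr_left
      fun s => by simp [e]).trans (IsBigO.of_bound (‖z - x‖ ^ (d + 1)) (.of_forall fun s => ?_))
    simp [norm_smul, mul_pow, mul_comm]

end Vale.Agent.P300LC
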