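import Vale.Agent.P300LC.Prj
import Mathlib.Algebra.Module.Submodule.Union

/-! The characteristic polynomial of a linear form on the fibres of the projection. -/

set_option linter.all false

open Set Filter Topology Metric
open Function (Injective Surjective)
open MvPolynomial (eval)

noncomputable section

namespace Vale.Agent.P300LC

variable {n M : ℕ} {C : Set (Vn M)} {v q z : Vn M} {σ : Vn n → Vn M} {u : Vn n}
  {π : Vn M →L[ℂ] Vn (n + 1)} {δ G : Pn M} {c : ℝ} {ξ : Vn M →L[ℂ] ℂ} {d : ℕ}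

theorem Cv.tube (h : Cn n C) (k : Cv C π δ c) {O : Set (Vn M × Vn M)} (hO : IsOpen O)
    (e : ∀ v ∈ insert 0 C, π v = π q → (q, v) ∈ O) :
    ∀ᶠ z in 𝓝 q, ∀ v ∈ insert 0 C, π v = π z → (z, v) ∈ O := by
  have a : IsCompact ((closedBall q 1 ×ˢ closedBall 0 (c * (‖π‖ * (‖q‖ + 1)))) ∩
      ({p | p.2 ∈ insert 0 C} ∩ {p | π p.2 = π p.1} ∩ Oᶜ)) :=
    ((isCompact_closedBall _ _).prod (isCompact_closedBall _ _)).inter_right
      (((h.cl.preimage continuous_snd).inter (isClosed_eq (by fun_prop) (by fun_prop))).inter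
        hO.isClosed_compl)
  filter_upwards [(a.image continuous_fst).isClosed.isOpen_compl.mem_nhds (x := q) (by
    rintro ⟨⟨_, v⟩, ⟨-, ⟨b1, b2⟩, b3⟩, rfl⟩
    exact b3 (e v b1 b2)), closedBall_mem_nhds q one_pos] with z z1 z2 v v1 v2
  by_contra t
  refine z1 ⟨(z, v), ⟨⟨z2, mem_closedBall_zero_iff.2 ((k.bd v v1).trans ?_)⟩, ⟨v1, v2⟩, t⟩, rfl⟩
  have := k.c0
  rw [v2]
  gcongr
  refine (π.le_opNorm z).trans ?_
  gcongr
  exact norm_le_norm_add_const_of_dist_le z2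

theorem Cv.cpt (h : Cn n C) (k : Cv C π δ c) (q : Vn M) :
    IsCompact {v | v ∈ insert 0 C ∧ π v = π q} :=
  (isCompact_closedBall 0 (c * ‖π q‖)).of_isClosed_subset
    (h.cl.inter (isClosed_eq π.continuous continuous_const))
    fun v hv => mem_closedBall_zero_iff.2 (hv.2 ▸ k.bd v hv.1)

theorem Cv.sep (h : Cn n C) (k : Cv C π δ c) {O : Set (Vn M)} (hO : IsOpen O)
    (e : ∀ v ∈ insert 0 C, π v = π q → v ∉ O → ξ (q - v) ≠ 0) : ∃ ε, 0 < ε ∧ ε ≤ 1 ∧
    ∀ᶠ z in 𝓝 q, ∀ v ∈ C, π v = π z → v ∉ O → ε ≤ ‖ξ (z - v)‖ := by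
  obtain ⟨ε, e0, e1⟩ := ((k.cpt h q).diff hO).exists_forall_le' (f := fun v => ‖ξ (q - v)‖)
    (by fun_prop) fun v hv => norm_pos_iff.2 (e v hv.1.1 hv.1.2 hv.2)
  refine ⟨min (ε / 2) 1, lt_min (half_pos e0) one_pos, min_le_right _ _, (k.tube h
    (O := {p | p.2 ∈ O} ∪ {p | ε / 2 < ‖ξ (p.1 - p.2)‖}) ((hO.preimage continuous_snd).union
      (isOpen_lt continuous_const (by fun_prop))) fun v a b => or_iff_not_imp_left.2 fun t =>
        (half_lt_self e0).trans_le (e1 v ⟨⟨a, b⟩, t⟩)).mono fun z hz v a b t => ?_⟩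
  exact (min_le_left _ _).trans ((hz v (Or.inr a) b).resolve_left t).le

theorem Cv.mem (k : Cv C π δ c) (hz : ev δ z ≠ 0) (a : v ∈ insert 0 C) (b : π v = π z) : v ∈ C :=
  a.resolve_left fun e => hz (by rw [← k.inv _ _ b, e, k.z0])

open Classical in
theorem Cv.loc (h : Cn n C) (k : Cv C π δ c) (hq : ev δ q ≠ 0) : ∃ (s : Finset (Vn M))
    (g : Vn M → Vn (n + 1) → Vn M), (∀ v ∈ s, AnalyticAt ℂ (g v) (π q)) ∧ ∀ᶠ z in 𝓝 q,
      InjOn (fun v => g v (π z)) s ∧ ∀ y, y ∈ s.image (fun v => g v (π z)) ↔ y ∈ C ∧ π y = π z := by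
  choose! g hg using k.sec
  have s : ∀ v ∈ insert 0 C, π v = π q → Sec C π v (g v) := fun v a b =>
    hg v (k.mem hq a b) (k.inv _ _ b ▸ hq)
  have f : {v | v ∈ insert 0 C ∧ π v = π q}.Finite := by
    refine (k.cpt h q).induction_on finite_empty (fun _ _ st t => t.subset st)
      (fun _ _ => Finite.union) fun x hx => ⟨{x}, ?_, finite_singleton _⟩
    filter_upwards [self_mem_nhdsWithin, nhdsWithin_mono _ (fun y hy => k.mem hq hy.1 hy.2)
      (s x hx.1 hx.2).lf] with y a b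
    rw [a.2, ← hx.2, (s x hx.1 hx.2).val] at b
    exact b.symm
  have m : ∀ v ∈ f.toFinset, Sec C π v (g v) ∧ π v = π q := fun v hv =>
    have := f.mem_toFinset.1 hv; ⟨s v this.1 this.2, this.2⟩
  have t : ∀ v ∈ f.toFinset, Tendsto (fun z => g v (π z)) (𝓝 q) (𝓝 v) := fun v hv => by
    have := (m v hv).1.an.continuousAt.tendsto
    rw [(m v hv).1.val, (m v hv).2] at this
    exact this.comp π.continuous.continuousAt
  refine ⟨f.toFinset, g, fun v hv => (m v hv).2 ▸ (m v hv).1.an, ?_⟩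
  filter_upwards [(eventually_all_finset _).2 fun v hv => (eventually_all_finset _).2 fun w hw =>
      show ∀ᶠ z in 𝓝 q, g v (π z) = g w (π z) → v = w from (eq_or_ne v w).elim
        (fun e => .of_forall fun _ _ => e) fun e => (((t v hv).sub (t w hw)).eventually_ne
          (sub_ne_zero.2 e)).mono fun z a b => (a (sub_eq_zero.2 b)).elim,
    (eventually_all_finset _).2 fun v hv => π.continuous.continuousAt.eventually
      ((m v hv).2 ▸ (m v hv).1.rt), (ct_ev δ).continuousAt.eventually_ne hq, k.tube h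
      (O := {p | p.2 ∈ ⋃ v, ⋃ _ : v ∈ f.toFinset, interior {y | y ∈ C → g v (π y) = y}})
      ((isOpen_iUnion fun _ => isOpen_iUnion fun _ => isOpen_interior).preimage continuous_snd)
      fun v a b => mem_iUnion₂.2 ⟨v, f.mem_toFinset.2 ⟨a, b⟩, mem_interior_iff_mem_nhds.2
        (eventually_nhdsWithin_iff.1 (s v a b).lf)⟩] with z z1 z2 z3 z4
  refine ⟨fun v a w b => z1 v a w b, fun y => Finset.mem_image.trans ⟨?_, fun ⟨a, b⟩ => ?_⟩⟩
  · rintro ⟨v, a, rfl⟩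
    exact z2 v a
  · obtain ⟨v, a1, a2⟩ := mem_iUnion₂.1 (z4 y (Or.inr a) b)
    exact ⟨v, a1, b ▸ interior_subset a2 a⟩

/-- `G` is the characteristic polynomial of `ξ` -/
def Chr (C : Set (Vn M)) (π : Vn M →L[ℂ] Vn (n + 1)) (δ : Pn M) (ξ : Vn M →L[ℂ] ℂ) (d : ℕ)
    (G : Pn M) : Prop := ∀ z, ev δ z ≠ 0 → ∃ s : Finset (Vn M), (∀ y, y ∈ s ↔ y ∈ C ∧ π y = π z) ∧
      s.card = d ∧ ev G z = ∏ y ∈ s, ξ (z - y)

open Classical in
theorem Cv.chr (h : Cn n C) (k : Cv C π δ c) (ξ : Vn M →L[ℂ] ℂ) : ∃ d G, Chr C π δ ξ d G := by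
  have a : ∀ z, ev δ z ≠ 0 → ∃ s : Finset (Vn M), ∀ y, y ∈ s ↔ y ∈ C ∧ π y = π z := fun z hz =>
    let ⟨_, _, _, e⟩ := k.loc h hz; ⟨_, e.self_of_nhds.2⟩
  choose! fs hs using a
  have b : ∀ q, ev δ q ≠ 0 → ContinuousAt (fun z => (fs z).card) q ∧
      AnalyticAt ℂ (fun z => ∏ y ∈ fs z, ξ (z - y)) q := fun q hq => by
    obtain ⟨s, g, g1, g2⟩ := k.loc h hq
    have e : ∀ᶠ z in 𝓝 q, InjOn (fun v => g v (π z)) s ∧ fs z = s.image fun v => g v (π z) := by
      filter_upwards [g2, (ct_ev δ).continuousAt.eventually_ne hq] with z z1 z2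
      exact ⟨z1.1, Finset.ext fun y => (hs z z2 y).trans (z1.2 y).symm⟩
    refine ⟨(continuousAt_const (y := s.card)).congr (e.mono fun z hz => ?_),
      (Finset.analyticAt_fun_prod s fun v hv => (ξ.analyticAt _).comp (analyticAt_id.sub
        ((g1 v hv).comp (π.analyticAt q)))).congr (e.mono fun z hz => ?_)⟩
    · simp only [hz.2, Finset.card_image_of_injOn hz.1]
    · simp only [hz.2, Finset.prod_image hz.1]
      rfl
  obtain ⟨x, -, hx⟩ := k.ne
  have e : ∀ z, ev δ z ≠ 0 → (fs z).card = (fs x).card := fun z hz =>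
    (pre_ne δ).constant (fun q hq => (b q hq).1.continuousWithinAt) hz hx
  obtain ⟨G, hG⟩ := pol_ext δ (fun q hq => (b q hq).2) (d := (fs x).card)
    (c := (‖ξ‖ * (1 + c * ‖π‖)) ^ (fs x).card) fun z hz => by
      rw [← e z hz, norm_prod, ← mul_pow, ← Finset.prod_const]
      refine Finset.prod_le_prod (fun _ _ => norm_nonneg _) fun y hy => ?_
      obtain ⟨y1, y2⟩ := (hs z hz y).1 hy
      have := k.bd y (Or.inr y1)
      have c0 := k.c0
      have p0 := norm_nonneg π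
      rw [y2] at this
      refine (ξ.le_opNorm _).trans ?_
      rw [mul_assoc]
      gcongr
      nlinarith [norm_sub_le z y, mul_le_mul_of_nonneg_left (π.le_opNorm z) c0, norm_nonneg z,
        mul_nonneg c0 p0]
  exact ⟨_, G, fun z hz => ⟨fs z, hs z hz, e z hz, hG z hz⟩⟩

theorem Cv.dense (k : Cv C π δ c) : Dense {z | ev δ z ≠ 0} :=
  let ⟨_, _, a⟩ := k.ne; dense_ne fun e => a (by simp [e, ev])

theorem Cv.den (k : Cv C π δ c) {a : Vn M → ℝ} (ha : ContinuousAt a q)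
    (e : ∀ᶠ z in 𝓝 q, ev δ z ≠ 0 → a z ≤ ‖ev G z‖) : a q ≤ ‖ev G q‖ :=
  have := mem_closure_iff_nhdsWithin_neBot.1 (k.dense q)
  le_of_tendsto_of_tendsto (b := 𝓝[{z | ev δ z ≠ 0}] q) ha.continuousWithinAt
    (ct_ev G).norm.continuousWithinAt (eventually_nhdsWithin_iff.2 e)

theorem Chr.van (g : Chr C π δ ξ d G) (h : Cn n C) (k : Cv C π δ c) : ∀ x ∈ C, ev G x = 0 := by
  intro x hx
  by_contra e
  obtain ⟨y, y1, y2⟩ := k.ne
  refine y2 (h.idt (an_ev δ) hx ?_ y y1)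
  filter_upwards [self_mem_nhdsWithin, mem_nhdsWithin_of_mem_nhds
    ((ct_ev G).continuousAt.eventually_ne e)] with z z1 z2
  by_contra t
  obtain ⟨s, s1, -, s2⟩ := g z t
  exact z2 (s2.trans (Finset.prod_eq_zero ((s1 z).2 ⟨z1, rfl⟩) (by simp)))

theorem Chr.low (g : Chr C π δ ξ d G) (k : Cv C π δ c) {ε : ℝ} (e0 : 0 ≤ ε)
    (e : ∀ᶠ z in 𝓝 q, ∀ v ∈ C, π v = π z → ε ≤ ‖ξ (z - v)‖) : ε ^ d ≤ ‖ev G q‖ := by
  refine k.den continuousAt_const (e.mono fun z a b => ?_)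
  obtain ⟨s, s1, s2, s3⟩ := g z b
  rw [s3, norm_prod, ← s2, ← Finset.prod_const]
  exact Finset.prod_le_prod (fun _ _ => e0) fun y hy => a y ((s1 y).1 hy).1 ((s1 y).1 hy).2

theorem Chr.inv (g : Chr C π δ ξ d G) (k : Cv C π δ c) {y : Vn M} (a : π y = 0) (b : ξ y = 0)
    (z : Vn M) : ev G (z + y) = ev G z := by
  refine congrFun (Continuous.ext_on k.dense ((ct_ev G).comp (continuous_add_const y)) (ct_ev G)
    fun z hz => ?_) z
  have e : π (z + y) = π z := by rw [map_add, a, add_zero]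
  obtain ⟨s, s1, -, s2⟩ := g z hz
  obtain ⟨t, t1, -, t2⟩ := g (z + y) (k.inv _ _ e ▸ hz)
  obtain rfl : s = t := Finset.ext fun x => (s1 x).trans (e ▸ (t1 x).symm)
  simp only [Function.comp, s2, t2, add_sub_right_comm, map_add, b, add_zero]

theorem Cv.fin (h : Cn n C) (k : Cv C π δ c) (q : Vn M) :
    {v | v ∈ insert 0 C ∧ π v = π q}.Finite := by
  have key : ∀ ξ : Vn M →L[ℂ] ℂ, (ξ '' {v | v ∈ C ∧ π v = π q}).Finite := fun ξ => by
    by_cases e : ∃ κ, π κ = 0 ∧ ξ κ ≠ 0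
    · obtain ⟨κ, a, b⟩ := e
      obtain ⟨d, G, g⟩ := k.chr h ξ
      let R : ℝ := ‖ξ‖ * (c * ‖π q‖) + 2
      have c0 := k.c0
      have l : ∀ s : ℂ, π (q + s • κ) = π q := fun s => by simp [a]
      refine ((line_fin (P := G) (z := q) (y := κ) (t := (R - ξ q) / ξ κ) (norm_pos_iff.1
        ((pow_pos one_pos d).trans_le (g.low k zero_le_one ?_)))).image
          fun s => ξ (q + s • κ)).subset ?_
      · have : ∀ᶠ z in 𝓝 (q + ((R - ξ q) / ξ κ) • κ), ‖ξ‖ * (c * ‖π z‖) + 1 < ‖ξ z‖ := by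
          refine ContinuousAt.eventually_lt (by fun_prop) (by fun_prop) ?_
          rw [l, map_add, map_smul, smul_eq_mul, div_mul_cancel₀ _ b, add_sub_cancel,
            Complex.norm_real, Real.norm_of_nonneg (by positivity)]
          exact by simp only [R]; linarith
        refine this.mono fun z hz v v1 v2 => ?_
        have t := k.bd v (Or.inr v1)
        rw [v2] at t
        rw [map_sub]
        linarith [norm_sub_norm_le (ξ z) (ξ v), ξ.le_opNorm v,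
          mul_le_mul_of_nonneg_left t (norm_nonneg ξ)]
      · rintro _ ⟨v, ⟨v1, v2⟩, rfl⟩
        have t : ξ (q + ((ξ v - ξ q) / ξ κ) • κ) = ξ v := by
          rw [map_add, map_smul, smul_eq_mul, div_mul_cancel₀ _ b, add_sub_cancel]
        refine ⟨_, ?_, t⟩
        have := g.inv k (y := q + ((ξ v - ξ q) / ξ κ) • κ - v) (by rw [map_sub, l, v2, sub_self])
          (by rw [map_sub, t, sub_self]) v
        rwa [add_sub_cancel, g.van h k v v1] at this
    · refine (finite_singleton (ξ q)).subset ?_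
      rintro _ ⟨v, ⟨-, v2⟩, rfl⟩
      by_contra t
      exact e ⟨v - q, by rw [map_sub, v2, sub_self], by rw [map_sub]; exact sub_ne_zero.2 t⟩
  refine ((Finite.pi' fun j => key (ContinuousLinearMap.proj j)).insert 0).subset fun v hv => ?_
  exact hv.1.imp id fun a j => ⟨v, ⟨a, hv.2⟩, rfl⟩

theorem ex_xi {S : Set (Vn M)} (hS : S.Finite) (h0 : 0 ∉ S) :
    ∃ ξ : Vn M →L[ℂ] ℂ, ∀ y ∈ S, ξ y ≠ 0 := by
  have := hS.to_subtype
  obtain ⟨f, hf⟩ := Module.exists_dual_forall_apply_ne_zero (K := ℂ) (fun y : S => y.1)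
    fun y e => h0 (e ▸ y.2)
  exact ⟨LinearMap.toContinuousLinearMap f, fun y hy => hf ⟨y, hy⟩⟩

theorem Cn.off (h : Cn n C) (hv : v ∈ C) (hq : q ∉ insert 0 C) :
    ∃ G : Pn M, (∀ x ∈ C, ev G x = 0) ∧ ev G q ≠ 0 := by
  obtain ⟨σ, u, p⟩ := h.par v hv
  obtain ⟨π, δ, c, -, k⟩ := h.cv hv p
  obtain ⟨ξ, hξ⟩ := ex_xi ((k.fin h q).image fun v => q - v) fun ⟨v, a, b⟩ =>
    hq (sub_eq_zero.1 b ▸ a.1)
  obtain ⟨d, G, g⟩ := k.chr h ξ
  obtain ⟨ε, e0, -, e⟩ := k.sep h isOpen_empty fun v a b _ => hξ _ ⟨v, ⟨a, b⟩, rfl⟩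
  exact ⟨G, g.van h k, norm_pos_iff.1 ((pow_pos e0 d).trans_le
    (g.low k e0.le (e.mono fun z a v b c => a v b c id)))⟩

open Classical in
theorem Cn.jac (h : Cn n C) (hv : v ∈ C) (p : Par C v σ u) {κ : Vn M}
    (e : ∀ G : Pn M, (∀ x ∈ C, ev G x = 0) → fderiv ℂ (ev G) v κ = 0) : ∃ y, df σ u y = κ := by
  obtain ⟨π, δ, c, i, k⟩ := h.cv hv p
  obtain ⟨y, hy⟩ := sur_of i (π κ)
  obtain ⟨f, s⟩ := p.sec i
  refine ⟨y, (sub_eq_zero.1 (by_contra fun t => ?_)).symm⟩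
  have l0 : π (κ - df σ u y) = 0 := by rw [map_sub, ← hy]; exact sub_self _
  obtain ⟨ξ, hξ⟩ := ex_xi ((((k.fin h v).diff (t := {v})).image fun w => v - w).insert
    (κ - df σ u y)) fun a => a.elim (fun a => t a.symm) fun ⟨w, a, b⟩ => a.2 (sub_eq_zero.1 b).symm
  obtain ⟨d, G, g⟩ := k.chr h ξ
  have o : v ∈ interior {x | x ∈ C → f (π x) = x} :=
    mem_interior_iff_mem_nhds.2 (eventually_nhdsWithin_iff.1 s.lf)
  obtain ⟨ε, e0, e1, e2⟩ := k.sep h isOpen_interior fun w a b c =>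
    hξ _ (Or.inr ⟨w, ⟨⟨a, b⟩, fun e => c (e ▸ o)⟩, rfl⟩)
  have lb : ∀ᶠ z in 𝓝 v, ε ^ d * ‖ξ (z - f (π z))‖ ≤ ‖ev G z‖ := by
    filter_upwards [eventually_eventually_nhds.2 (e2.and (π.continuous.continuousAt.eventually s.rt)),
      π.continuous.continuousAt.eventually s.an.eventually_analyticAt] with q q1 q2
    have := q2.continuousAt.comp π.continuous.continuousAt
    refine k.den (a := fun z => ε ^ d * ‖ξ (z - (f ∘ π) z)‖) (by fun_prop)
      (q1.mono fun z a b => ?_)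
    obtain ⟨S, s1, s2, s3⟩ := g z b
    have m := (s1 _).2 a.2
    rw [s3, ← Finset.prod_erase_mul _ _ m, norm_mul, norm_prod]
    refine mul_le_mul_of_nonneg_right ((pow_le_pow_of_le_one e0.le e1
      (s2 ▸ Finset.card_erase_le (s := S) (a := f (π z)))).trans ?_) (norm_nonneg _)
    rw [← Finset.prod_const]
    refine Finset.prod_le_prod (fun _ _ => e0.le) fun w hw => ?_
    obtain ⟨w1, w2⟩ := Finset.mem_erase.1 hw
    obtain ⟨w3, w4⟩ := (s1 w).1 w2
    exact a.1 w w3 w4 fun r => w1 (w4 ▸ interior_subset r w3).symm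
  have l1 : HasDerivAt (fun t : ℂ => v + t • (κ - df σ u y)) (κ - df σ u y) 0 := by
    simpa using ((hasDerivAt_id (0 : ℂ)).smul_const (κ - df σ u y)).const_add v
  have l2 := (an_ev G v).differentiableAt.hasFDerivAt.comp_hasDerivAt_of_eq _ l1 (by simp)
  rw [map_sub, e G (g.van h k), p.tan (an_ev G v).differentiableAt (g.van h k), sub_zero] at l2
  have x0 : 0 < ε ^ d * ‖ξ (κ - df σ u y)‖ := mul_pos (pow_pos e0 d)
    (norm_pos_iff.2 (hξ _ (Or.inl rfl)))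
  obtain ⟨r, ⟨r1, r2⟩, r3⟩ := (((l2.isLittleO.bound (half_pos x0)).and ((l1.continuousAt.tendsto.mono_right
    (by simp)).eventually lb)).filter_mono nhdsWithin_le_nhds |>.and
      (self_mem_nhdsWithin (a := (0 : ℂ)) (s := {0}ᶜ))).exists
  simp only [Function.comp, zero_smul, add_zero, g.van h k v hv, smul_zero, sub_zero, map_add,
    map_smul, l0, s.val, add_sub_cancel_left, norm_smul] at r1 r2
  nlinarith [mul_pos x0 (norm_pos_iff.2 r3)]

end Vale.Agent.P300LC
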