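import Vale.Agent.P300LC.Pol
import Mathlib.Analysis.Complex.Schwarz
import Mathlib.Analysis.Calculus.InverseFunctionTheorem.FDeriv
import Mathlib.Analysis.Calculus.FDeriv.Analytic

/-! Cones over compact submanifolds: identity theorem, the count of Siegel. -/

set_option linter.all false

open Set Filter Topology Asymptotics Metric
open MvPolynomial (eval)

noncomputable section

namespace Vale.Agent.P300LC

variable {n M : ℕ} {C : Set (Vn M)} {v : Vn M} {σ : Vn n → Vn M} {u : Vn n}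

/-- the chart of the cone -/
def cf (σ : Vn n → Vn M) (p : ℂ × Vn n) : Vn M := p.1 • σ p.2

/-- its differential -/
def df (σ : Vn n → Vn M) (u : Vn n) : ℂ × Vn n →L[ℂ] Vn M := fderiv ℂ (cf σ) (1, u)

/-- a local parametrisation of the cone -/
structure Par (C : Set (Vn M)) (v : Vn M) (σ : Vn n → Vn M) (u : Vn n) : Prop where
  an : AnalyticAt ℂ σ u
  val : σ u = v
  imm : Function.Injective (df σ u)
  nh : map (cf σ) (𝓝 (1, u)) = 𝓝[C] v

/-- the cone over a compact connected submanifold of dimension `n` -/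
structure Cn (n : ℕ) (C : Set (Vn M)) : Prop where
  zero : 0 ∉ C
  smul : ∀ v ∈ C, ∀ s : ℂ, s ≠ 0 → s • v ∈ C
  cl : IsClosed (insert 0 C)
  con : IsPreconnected C
  par : ∀ v ∈ C, ∃ (σ : Vn n → Vn M) (u : Vn n), Par C v σ u

theorem an_cf (h : AnalyticAt ℂ σ u) (s : ℂ) : AnalyticAt ℂ (cf σ) (s, u) :=
  analyticAt_fst.smul (h.comp_of_eq analyticAt_snd rfl)

theorem Par.anf (h : Par C v σ u) : AnalyticAt ℂ (cf σ) (1, u) := an_cf h.an 1

theorem Par.valf (h : Par C v σ u) : cf σ (1, u) = v := (one_smul _ _).trans h.val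

theorem Par.mem (h : Par C v σ u) : ∀ᶠ p in 𝓝 (1, u), cf σ p ∈ C :=
  mem_map.1 (h.nh ▸ self_mem_nhdsWithin)

theorem Par.tan (h : Par C v σ u) {P : Vn M → ℂ} (d : DifferentiableAt ℂ P v)
    (z : ∀ x ∈ C, P x = 0) (y : ℂ × Vn n) : fderiv ℂ P v (df σ u y) = 0 := by
  have e : P ∘ cf σ =ᶠ[𝓝 (1, u)] fun _ => 0 := h.mem.mono fun p hp => z _ hp
  have := e.fderiv_eq (𝕜 := ℂ)
  rw [fderiv_comp _ (h.valf.symm ▸ d) h.anf.differentiableAt, h.valf, fderiv_fun_const] at this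
  exact DFunLike.congr_fun this y

theorem Cn.idt (h : Cn n C) {P : Vn M → ℂ} (hP : ∀ z, AnalyticAt ℂ P z) (hv : v ∈ C)
    (e : ∀ᶠ z in 𝓝[C] v, P z = 0) : ∀ x ∈ C, P x = 0 := by
  let Z := {v | ∀ᶠ z in 𝓝 v, z ∈ C → P z = 0}
  refine (isPreconnected_iff_subset_of_disjoint.1 h.con Z (closure (Z ∩ C))ᶜ
    isOpen_setOf_eventually_nhds isClosed_closure.isOpen_compl (fun x hx => ?_)
    (eq_empty_of_forall_notMem fun x hx => hx.2.2 (subset_closure ⟨hx.2.1, hx.1⟩))).elim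
    (fun a x hx => Eventually.self_of_nhds (a hx) hx)
    fun a => (a hv (subset_closure ⟨eventually_nhdsWithin_iff.1 e, hv⟩)).elim
  refine or_iff_not_imp_right.2 fun c => ?_
  replace c := not_not.1 c
  obtain ⟨σ, u, p⟩ := h.par x hx
  obtain ⟨r, hr, hb⟩ := Metric.eventually_nhds_iff_ball.1 (p.anf.eventually_analyticAt.and p.mem)
  have f : ∃ᶠ z in 𝓝[C] x, z ∈ Z := by
    rw [frequently_nhdsWithin_iff]
    exact mem_closure_iff_frequently.1 c
  rw [← p.nh, frequently_map] at f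
  obtain ⟨q, q1, q2⟩ := (f.and_eventually (ball_mem_nhds _ hr)).exists
  refine eventually_nhdsWithin_iff.1 (p.nh ▸ eventually_map.2 ?_)
  filter_upwards [ball_mem_nhds _ hr] with y hy
  refine AnalyticOnNhd.eqOn_zero_of_preconnected_of_eventuallyEq_zero (f := P ∘ cf σ)
    (fun y hy => (hP _).comp (hb y hy).1) (convex_ball _ _).isPreconnected q2 ?_ hy
  filter_upwards [(hb q q2).1.continuousAt.eventually q1, isOpen_ball.mem_nhds q2] with y a b
  exact a (hb y b).2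

theorem Cn.cpt (h : Cn n C) : IsCompact (C ∩ sphere 0 1) := by
  have : C ∩ sphere 0 1 = insert 0 C ∩ sphere 0 1 := by
    ext x
    refine and_congr_left fun a => ⟨Or.inr, fun b => b.resolve_left ?_⟩
    rintro rfl
    simp at a
  exact this ▸ (isCompact_sphere _ _).inter_left h.cl

theorem Cn.nrm (h : Cn n C) (hv : v ∈ C) : ((‖v‖ : ℂ)⁻¹ • v) ∈ C ∩ sphere 0 1 := by
  have a : ‖v‖ ≠ 0 := norm_ne_zero_iff.2 fun e => h.zero (e ▸ hv)
  exact ⟨h.smul v hv _ (by simpa using a), by simp [norm_smul, a]⟩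

/-- the span of the monomials -/
def Wm (n m : ℕ) : Submodule ℂ (Vn n → ℂ) :=
  Submodule.span ℂ (range fun (α : Fin n → Fin m) (y : Vn n) => ∏ l, y l ^ (α l : ℕ))

instance (n m : ℕ) : FiniteDimensional ℂ (Wm n m) := .span_of_finite _ (finite_range _)

theorem wm_le (n m : ℕ) : Module.finrank ℂ (Wm n m) ≤ m ^ n := by
  refine (finrank_range_le_card (R := ℂ)
    fun (α : Fin n → Fin m) (y : Vn n) => ∏ l, y l ^ (α l : ℕ)).trans_eq (by simp)

theorem ps_mem (p : FormalMultilinearSeries ℂ (Vn n) ℂ) (m : ℕ) : p.partialSum m ∈ Wm n m := by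
  have : p.partialSum m = ∑ j ∈ Finset.range m, ∑ i : Fin j → Fin n,
      (p j fun k => Pi.single (i k) 1) • fun y : Vn n => ∏ k, y (i k) := funext fun y => by
    simp [FormalMultilinearSeries.partialSum, ml_exp (p _) y, mul_comm]
  rw [this]
  refine Submodule.sum_mem _ fun j hj => Submodule.sum_mem _ fun i _ => Submodule.smul_mem _ _
    (Submodule.subset_span ⟨fun l => ⟨(Finset.univ.filter fun k => i k = l).card,
      (Finset.card_le_univ _).trans_lt (by simpa using hj)⟩, funext fun y => ?_⟩)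
  rw [← Finset.prod_fiberwise Finset.univ i fun k => y (i k)]
  refine Finset.prod_congr rfl fun l _ => ?_
  rw [Finset.prod_congr rfl fun k hk => congrArg y (Finset.mem_filter.1 hk).2, Finset.prod_const]

/-- finitely many charts -/
theorem Cn.cov (h : Cn n C) : ∃ (A : ℕ) (σ : Fin A → Vn n → Vn M) (u : Fin A → Vn n)
    (R : Fin A → ℝ), (∀ a, 0 < R a ∧ ∀ y ∈ ball (u a) (R a), AnalyticAt ℂ (σ a) y ∧ σ a y ∈ C ∧
      ‖σ a y‖ ≤ 2) ∧ ∀ x ∈ C ∩ sphere 0 1, ∃ a s y, ‖s‖ ≤ 2 ∧ y ∈ ball (u a) (R a / 2) ∧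
        x = (s : ℂ) • σ a y := by
  have k : ∀ x : ↥(C ∩ sphere 0 1), ∃ (σ : Vn n → Vn M) (u : Vn n) (R : ℝ), (0 < R ∧
      ∀ y ∈ ball u R, AnalyticAt ℂ σ y ∧ σ y ∈ C ∧ ‖σ y‖ ≤ 2) ∧
      cf σ '' (ball 1 1 ×ˢ ball u (R / 2)) ∈ 𝓝[C ∩ sphere 0 1] x.1 := fun x => by
    obtain ⟨σ, u, p⟩ := h.par x x.2.1
    have a : ∀ᶠ y in 𝓝 u, σ y ∈ C := ((continuous_const.prodMk continuous_id).tendsto' u (1, u)
      rfl).eventually p.mem |>.mono fun y hy => one_smul ℂ (σ y) ▸ hy
    have b : ∀ᶠ y in 𝓝 u, ‖σ y‖ ≤ 2 := p.an.continuousAt.norm.eventually_le_const (by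
      beta_reduce; rw [p.val, mem_sphere_zero_iff_norm.1 x.2.2]; exact one_lt_two)
    obtain ⟨r, hr, hb⟩ := Metric.eventually_nhds_iff_ball.1
      (p.an.eventually_analyticAt.and (a.and b))
    exact ⟨σ, u, r, ⟨hr, hb⟩, nhdsWithin_mono _ inter_subset_left (p.nh ▸ image_mem_map
      (prod_mem_nhds (ball_mem_nhds _ one_pos) (ball_mem_nhds _ (half_pos hr))))⟩
  choose σ u R k1 k2 using k
  obtain ⟨t, ht⟩ := h.cpt.elim_nhdsWithin_subcover' _ fun x hx => k2 ⟨x, hx⟩
  refine ⟨t.card, fun a => σ (t.equivFin.symm a), fun a => u (t.equivFin.symm a),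
    fun a => R (t.equivFin.symm a), fun a => k1 _, fun x hx => ?_⟩
  obtain ⟨b, hb, ⟨s, y⟩, ⟨c, d⟩, e⟩ := mem_iUnion₂.1 (ht hx)
  refine ⟨t.equivFin ⟨b, hb⟩, s, y, ?_, by simpa using d, by simpa [cf] using e.symm⟩
  have := norm_le_norm_add_norm_sub' s 1
  rw [mem_ball, dist_eq_norm] at c
  rw [norm_one] at this
  linarith

theorem Cn.van (h : Cn n C) : ∃ A : ℕ, ∀ (k : ℕ) (B : Type) [Fintype B] (g : B → Vn M → ℂ),
    (∀ b z, AnalyticAt ℂ (g b) z) → (∀ b s z, g b ((s : ℂ) • z) = s ^ k * g b z) →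
    A * (2 * k + 2) ^ n < Fintype.card B → ∃ c : B → ℂ, (∃ b, c b ≠ 0) ∧
      ∀ x ∈ C, ∑ b, c b * g b x = 0 := by
  obtain ⟨A, σ, u, R, h1, h2⟩ := h.cov
  refine ⟨A, fun k B _ g g1 g2 hB => ?_⟩
  have an : ∀ a b, AnalyticAt ℂ (g b ∘ σ a) (u a) := fun a b =>
    (g1 b _).comp ((h1 a).2 _ (mem_ball_self (h1 a).1)).1
  choose p hp using an
  obtain ⟨c, c1, c2⟩ := Fintype.not_linearIndependent_iff.1 fun e : LinearIndependent ℂ
      fun b a => (⟨_, ps_mem (p a b) (2 * k + 2)⟩ : Wm n (2 * k + 2)) => by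
    have := e.fintype_card_le_finrank
    rw [Module.finrank_pi_fintype, Finset.sum_const, Finset.card_univ, Fintype.card_fin,
      smul_eq_mul] at this
    exact (this.trans (Nat.mul_le_mul_left _ (wm_le _ _))).not_gt hB
  refine ⟨c, c2, ?_⟩
  set F : Vn M → ℂ := fun x => ∑ b, c b * g b x with hF
  have aF : ∀ z, AnalyticAt ℂ F z := fun z =>
    Finset.analyticAt_fun_sum _ fun b _ => analyticAt_const.mul (g1 b z)
  have sF : ∀ s z, F ((s : ℂ) • z) = s ^ k * F z := fun s z => by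
    simp only [hF, g2, Finset.mul_sum, mul_left_comm]
  intro x hx
  obtain ⟨w, hw, mx⟩ := h.cpt.exists_isMaxOn ⟨_, h.nrm hx⟩ (f := fun z => ‖F z‖)
    fun z _ => (aF z).continuousAt.norm.continuousWithinAt
  have up : ∀ z ∈ C, ‖F z‖ ≤ ‖z‖ ^ k * ‖F w‖ := fun z hz => by
    have a : (‖z‖ : ℂ) ≠ 0 := by simpa using fun e : z = 0 => h.zero (e ▸ hz)
    conv_lhs => rw [← smul_inv_smul₀ a z, sF, norm_mul, norm_pow, Complex.norm_real, norm_norm]
    exact mul_le_mul_of_nonneg_left (mx (h.nrm hz)) (by positivity)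
  obtain ⟨a, s, y, s2, hy, e⟩ := h2 w hw
  have o : (fun y => F (σ a (u a + y))) =O[𝓝 0] fun y => ‖y‖ ^ (2 * k + 2) := by
    refine (IsBigO.fun_sum (s := Finset.univ) fun b _ =>
      ((hp a b).isBigO_sub_partialSum_pow (2 * k + 2)).const_mul_left (c b)).congr_left fun y => ?_
    have := congrFun (congrArg Subtype.val (congrFun c1 a)) y
    simp only [Finset.sum_apply, Pi.smul_apply, AddSubmonoidClass.coe_finset_sum,
      SetLike.val_smul, smul_eq_mul, Pi.zero_apply, ZeroMemClass.coe_zero] at this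
    simp only [mul_sub, Finset.sum_sub_distrib, this, sub_zero, hF, Function.comp]
  have z0 : F (σ a (u a)) = 0 := by simpa using o.bound.choose_spec.self_of_nhds
  have sch := Complex.dist_le_mul_div_pow_of_mapsTo_ball_of_isLittleO (f := F ∘ σ a) (c := u a)
    (R₂ := 2 ^ k * ‖F w‖) (n := 2 * k + 1)
    (fun y hy => ((aF _).comp ((h1 a).2 y hy).1).differentiableAt.differentiableWithinAt)
    (fun y hy => ?_) ?_ (ball_subset_ball (half_le_self (h1 a).1.le) hy)
  · have q : dist y (u a) / R a ≤ 1 / 2 := by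
      rw [div_le_iff₀ (h1 a).1]; linarith [mem_ball.1 hy]
    rw [Function.comp, Function.comp, z0, dist_zero_right] at sch
    have t : ‖F w‖ ≤ 2 ^ k * (2 ^ k * ‖F w‖ * (1 / 2) ^ (2 * k + 1 + 1)) := by
      conv_lhs => rw [e, sF, norm_mul, norm_pow]
      have := (h1 a).1
      gcongr
      exact sch.trans (by gcongr)
    have t2 : (2 : ℝ) ^ k * (2 ^ k * ‖F w‖ * (1 / 2) ^ (2 * k + 1 + 1)) = ‖F w‖ / 4 := by
      rw [one_div, inv_pow]; field_simp; ring
    have t3 : ‖F w‖ = 0 := by linarith [norm_nonneg (F w)]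
    exact norm_le_zero_iff.1 (by simpa [t3] using up x hx)
  · rw [Function.comp, Function.comp, z0, mem_closedBall, dist_zero_right]
    exact (up _ ((h1 a).2 y hy).2.1).trans (by gcongr; exact ((h1 a).2 y hy).2.2)
  · have t : Tendsto (fun y => y - u a) (𝓝 (u a)) (𝓝 0) :=
      Continuous.tendsto' (by fun_prop) _ _ (sub_self _)
    refine ((o.trans_isLittleO ((isLittleO_pow_pow (show 2 * k + 1 < 2 * k + 2 by
      omega)).comp_tendsto tendsto_norm_zero)).comp_tendsto t).congr_left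
      fun y => by simp [z0]

/-- **Siegel**: `n + 2` linear forms are algebraically dependent on the cone -/
theorem Cn.sie (h : Cn n C) (L : Vn M →L[ℂ] Vn (n + 2)) :
    ∃ F : Pn (n + 2), F ≠ 0 ∧ ∀ x ∈ C, ev F (L x) = 0 := by
  obtain ⟨A, hA⟩ := h.van
  let K := A * (2 * (n + 1)) ^ n + 1
  let d : (Fin (n + 1) → Fin (K + 1)) → Fin (n + 2) →₀ ℕ := fun β => Finsupp.equivFunOnFinite.symm
    (Fin.cons ((n + 1) * K - ∑ i, (β i : ℕ)) fun i => β i)
  have dj : Function.Injective d := fun β γ e => funext fun i => Fin.ext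
    (congrFun (Finsupp.equivFunOnFinite.symm.injective e) i.succ)
  obtain ⟨c, ⟨b, c1⟩, c2⟩ := hA ((n + 1) * K) _ (fun β z => ev (MvPolynomial.monomial (d β) 1) (L z))
    (fun β z => (an_ev _ _).comp (L.analyticAt z)) (fun β s z => by
      rw [map_smul]
      refine hom_ev (MvPolynomial.isHomogeneous_monomial _ ?_) _ _
      have : ∑ i, (β i : ℕ) ≤ (n + 1) * K := by
        simpa using Finset.sum_le_card_nsmul Finset.univ (fun i => (β i : ℕ)) K
          fun i _ => Nat.lt_succ_iff.1 (β i).2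
      rw [Finsupp.degree_eq_sum, Fin.sum_univ_succ]
      exact Nat.sub_add_cancel this) (by
      have : 2 * ((n + 1) * K) + 2 ≤ 2 * (n + 1) * (K + 1) := by nlinarith
      rw [Fintype.card_fun, Fintype.card_fin, Fintype.card_fin, pow_succ']
      refine (Nat.mul_le_mul_left _ (Nat.pow_le_pow_left this n)).trans_lt ?_
      rw [mul_pow, ← mul_assoc]
      exact Nat.mul_lt_mul_of_pos_right (by omega) (by positivity))
  refine ⟨∑ β, MvPolynomial.monomial (d β) (c β), fun e => c1 ?_, fun x hx => ?_⟩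
  · simpa [MvPolynomial.coeff_sum, MvPolynomial.coeff_monomial, dj.eq_iff] using
      congrArg (MvPolynomial.coeff (d b)) e
  · simpa [ev, MvPolynomial.eval_monomial] using c2 x hx

end Vale.Agent.P300LC
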