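import Vale.Agent.P300LC.Cone
import Mathlib.RingTheory.Algebraic.Integral
import Mathlib.Algebra.MvPolynomial.Equiv
import Mathlib.Analysis.Calculus.Deriv.Polynomial
import Mathlib.Analysis.Calculus.Deriv.Prod

/-! A finite linear projection of the cone and its branch locus. -/

set_option linter.all false

open Set Filter Topology Metric
open Function (Injective Surjective extend)
open MvPolynomial (eval)
open Polynomial (aeval derivative)

noncomputable section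

namespace Vale.Agent.P300LC

variable {n M : ℕ} {C : Set (Vn M)} {v : Vn M} {σ : Vn n → Vn M} {u : Vn n}
  {π : Vn M →L[ℂ] Vn (n + 1)}

theorem fr_E : Module.finrank ℂ (ℂ × Vn n) = n + 1 := by simp [add_comm]

theorem Cn.prj_aux (h : Cn n C) (D : ℂ × Vn n →L[ℂ] Vn M) : ∀ (k : ℕ)
    (L : Vn M →L[ℂ] Vn (n + 1 + k)), (∀ x ∈ C, L x ≠ 0) → Injective (L.comp D) →
    ∃ π : Vn M →L[ℂ] Vn (n + 1), (∀ x ∈ C, π x ≠ 0) ∧ Injective (π.comp D)
  | 0, L, a, b => ⟨L, a, b⟩
  | k + 1, L, a, b => by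
    have hk : n + 2 ≤ n + 1 + (k + 1) := by omega
    let r : Vn (n + 1 + (k + 1)) →L[ℂ] Vn (n + 2) :=
      ContinuousLinearMap.pi fun i => ContinuousLinearMap.proj (Fin.castLE hk i)
    obtain ⟨F, F0, F1⟩ := h.sie (r.comp L)
    obtain ⟨w, hw⟩ := ex_ne F0
    obtain ⟨y, y1, y2⟩ : ∃ y, ev F (r y) ≠ 0 ∧ y ∉ LinearMap.range (L.comp D).toLinearMap := by
      by_contra! e
      have := LinearMap.finrank_range_le (L.comp D).toLinearMap
      rw [Submodule.eq_top_of_nonempty_interior' _ ⟨extend (Fin.castLE hk) w 0, interior_maximal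
        (t := {y | ev F (r y) ≠ 0}) e (isOpen_ne_fun ((ct_ev F).comp r.continuous)
          continuous_const) (show ev F _ ≠ 0 from (congrArg (ev F) (funext fun i =>
            (Fin.castLE_injective hk).extend_apply w 0 i)).trans_ne hw)⟩, finrank_top, fr_E] at this
      simp at this
    have y0 : y ≠ 0 := fun e => y2 (e ▸ zero_mem _)
    have fr := (ℂ ∙ y).finrank_quotient_add_finrank
    rw [finrank_span_singleton y0] at fr
    let ρ := (LinearEquiv.ofFinrankEq (R := ℂ) (_ ⧸ (ℂ ∙ y)) (Vn (n + 1 + k))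
      (by simp at fr ⊢; omega)).toLinearMap ∘ₗ (ℂ ∙ y).mkQ
    have hρ : ∀ z, ρ z = 0 → ∃ c : ℂ, c • y = z := fun z e => Submodule.mem_span_singleton.1
      ((Submodule.Quotient.mk_eq_zero _).1 ((LinearEquiv.map_eq_zero_iff _).1 e))
    refine h.prj_aux D k ((LinearMap.toContinuousLinearMap ρ).comp L) (fun x hx e => ?_)
      ((injective_iff_map_eq_zero _).2 fun z e => ?_)
    · obtain ⟨c, hc⟩ := hρ (L x) e
      have c0 : c ≠ 0 := fun e => a x hx (by rw [← hc, e, zero_smul])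
      refine y1 (.trans (congrArg (fun t => ev F (r t)) ?_) (F1 _ (h.smul x hx _ (inv_ne_zero c0))))
      exact ((map_smul L _ _).trans ((inv_smul_eq_iff₀ c0).2 hc.symm)).symm
    · obtain ⟨c, hc⟩ := hρ _ e
      by_cases c0 : c = 0
      · exact (injective_iff_map_eq_zero _).1 b z (hc.symm.trans (by rw [c0, zero_smul]))
      · exact (y2 ⟨c⁻¹ • z, by rw [map_smul]; exact (inv_smul_eq_iff₀ c0).2 hc.symm⟩).elim

theorem Cn.prj (h : Cn n C) (p : Par C v σ u) : ∃ π : Vn M →L[ℂ] Vn (n + 1),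
    (∀ x ∈ C, π x ≠ 0) ∧ Injective (π.comp (df σ u)) := by
  have := LinearMap.finrank_le_finrank_of_injective (f := (df σ u).toLinearMap) p.imm
  obtain ⟨k, rfl⟩ := Nat.exists_eq_add_of_le (show n + 1 ≤ M by simpa [add_comm] using this)
  exact h.prj_aux _ k (.id _ _) (fun x hx e => h.zero (e ▸ hx)) p.imm

theorem Cn.bd (h : Cn n C) (a : ∀ x ∈ C, π x ≠ 0) :
    ∃ c, 0 ≤ c ∧ ∀ x ∈ insert 0 C, ‖x‖ ≤ c * ‖π x‖ := by
  obtain ⟨e, e0, e1⟩ := h.cpt.exists_forall_le' (f := fun x => ‖π x‖) (by fun_prop)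
    fun x hx => norm_pos_iff.2 (a x hx.1)
  refine ⟨e⁻¹, inv_nonneg.2 e0.le, fun x hx => hx.elim (fun e => by simp [e]) fun hx => ?_⟩
  have := e1 _ (h.nrm hx)
  have b : 0 < ‖x‖ := norm_pos_iff.2 fun e => h.zero (e ▸ hx)
  rw [map_smul, norm_smul, norm_inv, Complex.norm_real, norm_norm, le_inv_mul_iff₀ b] at this
  rwa [le_inv_mul_iff₀ e0, mul_comm]

/-- a local section of the projection -/
structure Sec (C : Set (Vn M)) (π : Vn M →L[ℂ] Vn (n + 1)) (v : Vn M) (g : Vn (n + 1) → Vn M) :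
    Prop where
  an : AnalyticAt ℂ g (π v)
  val : g (π v) = v
  rt : ∀ᶠ w in 𝓝 (π v), g w ∈ C ∧ π (g w) = w
  lf : ∀ᶠ x in 𝓝[C] v, g (π x) = x

theorem sur_of {D : ℂ × Vn n →L[ℂ] Vn M} (hi : Injective (π.comp D)) : Surjective (π.comp D) :=
  (LinearMap.injective_iff_surjective_of_finrank_eq_finrank (f := (π.comp D).toLinearMap)
    (by simp [add_comm])).1 hi

theorem Par.sec (p : Par C v σ u) (hi : Injective (π.comp (df σ u))) : ∃ g, Sec C π v g := by
  let i := (LinearEquiv.ofBijective (π.comp (df σ u)).toLinearMap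
    ⟨hi, sur_of hi⟩).toContinuousLinearEquiv
  have a : AnalyticAt ℂ (π ∘ cf σ) (1, u) := (π.analyticAt _).comp p.anf
  have d : HasStrictFDerivAt (π ∘ cf σ) (i : ℂ × Vn n →L[ℂ] Vn (n + 1)) (1, u) :=
    π.hasStrictFDerivAt.comp _ p.anf.hasStrictFDerivAt
  have e : (π ∘ cf σ) (1, u) = π v := congrArg π p.valf
  have b : AnalyticAt ℂ (d.localInverse _ _ _) (π v) :=
    e ▸ (d.toOpenPartialHomeomorph _).analyticAt_symm' d.mem_toOpenPartialHomeomorph_source a
      d.hasFDerivAt.fderiv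
  have c : d.localInverse _ _ _ (π v) = (1, u) := e ▸ d.localInverse_apply_image
  refine ⟨cf σ ∘ d.localInverse _ _ _, p.anf.comp_of_eq b c, (congrArg _ c).trans p.valf,
    (b.continuousAt.eventually (c.symm ▸ p.mem)).and (e ▸ d.eventually_right_inverse), ?_⟩
  rw [← p.nh, eventually_map]
  exact d.eventually_left_inverse.mono fun x hx => congrArg (cf σ) hx

theorem Sec.ind {g} (s : Sec C π v g) {δ : Pn (n + 1)} (z : ∀ x ∈ C, ev δ (π x) = 0) : δ = 0 := by
  by_contra e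
  obtain ⟨w, a, b⟩ := mem_closure_iff_nhds.1 (dense_ne e (π v)) _ s.rt
  exact b (a.2 ▸ z _ a.1)

theorem ex_pb {r : ℕ} (L : Vn M →L[ℂ] Vn r) :
    ∃ φ : Pn r →+* Pn M, ∀ z, (eval z).comp φ = eval (L z) := by
  refine ⟨MvPolynomial.eval₂Hom MvPolynomial.C fun i => ∑ j,
    MvPolynomial.X j * MvPolynomial.C (L (Pi.single j 1) i), fun z =>
    MvPolynomial.ringHom_ext (by simp) fun i => ?_⟩
  conv_rhs => rw [← Finset.univ_sum_single z, map_sum]
  simp only [RingHom.comp_apply, MvPolynomial.eval₂Hom_X', map_sum, map_mul, MvPolynomial.eval_X,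
    MvPolynomial.eval_C, Finset.sum_apply]
  refine Finset.sum_congr rfl fun j _ => ?_
  rw [← smul_eq_mul, ← Pi.smul_apply, ← map_smul, ← Pi.single_smul', smul_eq_mul, mul_one]

theorem disc {R A : Type} [CommRing R] [IsDomain R] [CharZero R] [CommRing A] [IsDomain A]
    [Algebra R A] (inj : Injective (algebraMap R A)) {x : A} (hx : IsAlgebraic R x) :
    ∃ (G : Polynomial R) (δ : R), δ ≠ 0 ∧ aeval x G = 0 ∧
      aeval x (derivative G) ∣ algebraMap R A δ := by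
  obtain ⟨G, ⟨a, b⟩, c⟩ := (measure Polynomial.natDegree).wf.has_min
    {G | G ≠ 0 ∧ aeval x G = 0} hx
  have d : G.natDegree ≠ 0 := fun e => a (by
    rw [Polynomial.eq_C_of_natDegree_eq_zero e] at b ⊢
    rw [(injective_iff_map_eq_zero _).1 inj (G.coeff 0) (by simpa using b), map_zero])
  obtain ⟨δ, e, f⟩ := IsAlgebraic.exists_nonzero_dvd (R := R) (s := aeval x (derivative G))
    (Algebra.adjoin_le (S := Subalgebra.algebraicClosure R A) (singleton_subset_iff.2 hx)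
      (Polynomial.aeval_mem_adjoin_singleton R x)) (mem_nonZeroDivisors_of_ne_zero fun e =>
        c _ ⟨fun e => d (Polynomial.derivative_eq_zero.1 e), e⟩
          (Polynomial.natDegree_derivative_lt d))
  exact ⟨G, δ, e, b, f⟩

theorem Cn.crit (h : Cn n C) (hv : v ∈ C) {g} (s : Sec C π v g) (j : Fin M) :
    ∃ δ : Pn (n + 1), δ ≠ 0 ∧ ∀ x ∈ C, ∀ τ, (∀ P : Pn M, (∀ y ∈ C, ev P y = 0) →
      fderiv ℂ (ev P) x τ = 0) → π τ = 0 → τ j ≠ 0 → ev δ (π x) = 0 := by
  obtain ⟨φ, hφ⟩ := ex_pb π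
  let I : Ideal (Pn M) := RingHom.ker (Pi.ringHom fun x : C => eval x.1)
  have hI : ∀ P, Ideal.Quotient.mk I P = 0 ↔ ∀ y ∈ C, ev P y = 0 := fun P =>
    Ideal.Quotient.eq_zero_iff_mem.trans ⟨fun a y hy => congrFun a ⟨y, hy⟩,
      fun a => funext fun y => a _ y.2⟩
  have : I.IsPrime := ⟨fun e => one_ne_zero ((map_one (eval v)).symm.trans
    (congrFun (show _ ∈ I from e ▸ Submodule.mem_top (x := (1 : Pn M))) ⟨v, hv⟩)),
    fun {P Q} e => or_iff_not_imp_left.2 fun a => by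
      obtain ⟨x, hx⟩ := funext_iff.not.1 a |> not_forall.1
      refine funext fun y => h.idt (an_ev Q) x.2 ?_ y y.2
      filter_upwards [self_mem_nhdsWithin, mem_nhdsWithin_of_mem_nhds
        ((ct_ev P).continuousAt.eventually_ne hx)] with z z1 z2
      exact (mul_eq_zero.1 ((map_mul (eval z) P Q).symm.trans
        (congrFun e ⟨z, z1⟩))).resolve_left z2⟩
  let _ : Algebra (Pn (n + 1)) (Pn M ⧸ I) := ((Ideal.Quotient.mk I).comp φ).toAlgebra
  have e1 : ∀ G, aeval (Ideal.Quotient.mk I (MvPolynomial.X j)) G =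
      Ideal.Quotient.mk I (G.eval₂ φ (MvPolynomial.X j)) := fun G =>
    (G.hom_eval₂ φ (Ideal.Quotient.mk I) _).symm
  have e2 : ∀ (G : Polynomial (Pn (n + 1))) z, ev (G.eval₂ φ (MvPolynomial.X j)) z =
      (G.map (eval (π z))).eval (z j) := fun G z => by
    rw [ev, Polynomial.hom_eval₂, hφ, MvPolynomial.eval_X, Polynomial.eval_map]
  have e3 : ∀ δ z, ev (φ δ) z = ev δ (π z) := fun δ z => DFunLike.congr_fun (hφ z) δ
  obtain ⟨F, F0, F1⟩ := h.sie (ContinuousLinearMap.pi (Fin.cons (ContinuousLinearMap.proj j)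
    fun i => (ContinuousLinearMap.proj i).comp π : Fin (n + 2) → Vn M →L[ℂ] ℂ))
  obtain ⟨G, δ, a, b, c, d⟩ := disc (R := Pn (n + 1)) (A := Pn M ⧸ I)
    ((injective_iff_map_eq_zero _).2 fun δ e => s.ind fun x hx => e3 δ x ▸ (hI _).1 e x hx)
    (x := Ideal.Quotient.mk I (MvPolynomial.X j)) ⟨MvPolynomial.finSuccEquiv ℂ (n + 1) F,
      (map_ne_zero_iff _ (AlgEquiv.injective _)).2 F0, (e1 _).trans ((hI _).2 fun y hy => by
        rw [e2, ← MvPolynomial.eval_eq_eval_mv_eval', ← F1 y hy]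
        exact congrArg (eval · F) (funext fun i => by cases i using Fin.cases <;> rfl))⟩
  refine ⟨δ, a, fun x hx τ t1 t2 t3 => ?_⟩
  obtain ⟨c, rfl⟩ := Ideal.Quotient.mk_surjective c
  rw [e1] at b d
  have k := (hI (φ δ - (derivative G).eval₂ φ (MvPolynomial.X j) * c)).1 (by
    rw [map_sub, map_mul, ← d]; exact sub_self _) x hx
  have l1 : HasDerivAt (fun t : ℂ => x + t • τ) τ 0 := by
    simpa using ((hasDerivAt_id (0 : ℂ)).smul_const τ).const_add x
  have l2 := (an_ev (G.eval₂ φ (MvPolynomial.X j)) x).differentiableAt.hasFDerivAt.comp_hasDerivAt_of_eq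
    _ l1 (by simp)
  have l3 := ((G.map (eval (π x))).hasDerivAt (x j)).comp_of_eq _ (hasDerivAt_pi.1 l1 j) (by simp)
  have l4 := l2.unique (l3.congr_of_eventuallyEq (.of_forall fun t => by simp [e2, t2]))
  rw [t1 _ ((hI _).1 b), Polynomial.derivative_map, ← e2] at l4
  rw [ev, map_sub, map_mul] at k
  exact (e3 δ x).symm.trans ((sub_eq_zero.1 k).trans (mul_eq_zero_of_left
    ((mul_eq_zero.1 l4.symm).resolve_right t3) _))

/-- the projection is a covering off the hypersurface `δ = 0` -/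
structure Cv (C : Set (Vn M)) (π : Vn M →L[ℂ] Vn (n + 1)) (δ : Pn M) (c : ℝ) : Prop where
  ne : ∃ x ∈ C, ev δ x ≠ 0
  inv : ∀ x y, π x = π y → ev δ x = ev δ y
  z0 : ev δ 0 = 0
  c0 : 0 ≤ c
  bd : ∀ x ∈ insert 0 C, ‖x‖ ≤ c * ‖π x‖
  sec : ∀ x ∈ C, ev δ x ≠ 0 → ∃ g, Sec C π x g

theorem Cn.cv (h : Cn n C) (hv : v ∈ C) (p : Par C v σ u) : ∃ (π : Vn M →L[ℂ] Vn (n + 1))
    (δ : Pn M) (c : ℝ), Injective (π.comp (df σ u)) ∧ Cv C π δ c := by
  obtain ⟨π, a, b⟩ := h.prj p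
  obtain ⟨c, c0, c1⟩ := h.bd a
  obtain ⟨g, s⟩ := p.sec b
  choose δ d1 d2 using h.crit hv s
  obtain ⟨φ, hφ⟩ := ex_pb π
  have e3 : ∀ δ z, ev (φ δ) z = ev δ (π z) := fun δ z => DFunLike.congr_fun (hφ z) δ
  refine ⟨π, φ (MvPolynomial.X 0 * ∏ j, δ j), c, b, ?_, fun x y e => by rw [e3, e3, e],
    by rw [e3]; simp [ev], c0, c1, fun x hx k => ?_⟩
  · by_contra! e
    exact mul_ne_zero (MvPolynomial.X_ne_zero 0) (Finset.prod_ne_zero_iff.2 fun j _ => d1 j)
      (s.ind fun x hx => e3 _ x ▸ e x hx)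
  · obtain ⟨σ, u, p⟩ := h.par x hx
    refine p.sec ((injective_iff_map_eq_zero _).2 fun y e =>
      (injective_iff_map_eq_zero _).1 p.imm y (funext fun j => by_contra fun t => k ?_))
    rw [e3, ev, map_mul, map_prod]
    exact mul_eq_zero_of_right _ (Finset.prod_eq_zero (Finset.mem_univ j)
      (d2 j x hx _ (fun P z => p.tan (an_ev P x).differentiableAt z y) e t))

end Vale.Agent.P300LC
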